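import Mathlib

/-! Primitive recursive arithmetic on `ℚ`, for Mathlib's `Primcodable ℚ` instance. -/

namespace Crest.Agent.RatPR

open Encodable

/-- positive part of the numerator. -/
def pos (q : ℚ) : ℕ := q.num.toNat

/-- negative part of the numerator. -/
def neg (q : ℚ) : ℕ := (-q.num).toNat

/-- the code of an integer from its positive and negative parts. -/
def icode (p n : ℕ) : ℕ := 2 * p + (2 * n - 1)

/-- the code of the `Encodable` instance. -/
def code (q : ℚ) : ℕ := @Encodable.encode ℚ Rat.instEncodable q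

lemma encode_int (z : ℤ) : Encodable.encode z = icode z.toNat (-z).toNat := by
  cases z with
  | ofNat n =>
    have : Encodable.encode (Int.ofNat n) = 2 * n := by
      show Equiv.natSumNatEquivNat (Sum.inl n) = _
      simp [Equiv.natSumNatEquivNat_apply]
    rw [this]; simp [icode]
  | negSucc n =>
    have : Encodable.encode (Int.negSucc n) = 2 * n + 1 := by
      show Equiv.intEquivNat (Int.negSucc n) = _
      simp [Equiv.intEquivNat, Equiv.intEquivNatSumNat, Equiv.natSumNatEquivNat_apply]
    rw [this]; simp [icode]; omega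

lemma code_eq (q : ℚ) : code q = Nat.pair (icode (pos q) (neg q)) q.den := by
  have : code q = Nat.pair (Encodable.encode q.num) q.den := rfl
  rw [this, encode_int]; rfl

lemma code_injective : Function.Injective code :=
  @Encodable.encode_injective ℚ Rat.instEncodable

/-- positive part from the integer code. -/
def cpos (e : ℕ) : ℕ := if e % 2 = 0 then e / 2 else 0

/-- negative part from the integer code. -/
def cneg (e : ℕ) : ℕ := if e % 2 = 0 then 0 else e / 2 + 1

lemma pos_or_neg (q : ℚ) : pos q = 0 ∨ neg q = 0 := by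
  unfold pos neg; omega

lemma cpos_icode (q : ℚ) : cpos (icode (pos q) (neg q)) = pos q := by
  have := pos_or_neg q
  unfold cpos icode; split_ifs <;> omega

lemma cneg_icode (q : ℚ) : cneg (icode (pos q) (neg q)) = neg q := by
  have := pos_or_neg q
  unfold cneg icode; split_ifs <;> omega

lemma natAbs_eq (q : ℚ) : q.num.natAbs = pos q + neg q := by
  unfold pos neg; omega

lemma num_eq (q : ℚ) : q.num = (pos q : ℤ) - neg q := by
  unfold pos neg; omega

/-- the decidable description of the range of `code`. -/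
def Valid (m : ℕ) : Prop :=
  0 < m.unpair.2 ∧ ∀ k < m.unpair.2 + 1,
    (cpos m.unpair.1 + cneg m.unpair.1) % k = 0 → m.unpair.2 % k = 0 → k = 1

instance : DecidablePred Valid := fun m => by unfold Valid; infer_instance

lemma valid_iff (m : ℕ) : Valid m ↔ m ∈ Set.range code := by
  constructor
  · rintro ⟨h0, h1⟩
    have hc : ((cpos m.unpair.1 : ℤ) - cneg m.unpair.1).natAbs.Coprime m.unpair.2 := by
      have e : ((cpos m.unpair.1 : ℤ) - cneg m.unpair.1).natAbs =
          cpos m.unpair.1 + cneg m.unpair.1 := by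
        unfold cpos cneg; split_ifs <;> omega
      rw [e]
      apply h1
      · exact Nat.lt_succ_of_le (Nat.gcd_le_right _ h0)
      · exact Nat.mod_eq_zero_of_dvd (Nat.gcd_dvd_left _ _)
      · exact Nat.mod_eq_zero_of_dvd (Nat.gcd_dvd_right _ _)
    refine ⟨⟨(cpos m.unpair.1 : ℤ) - cneg m.unpair.1, m.unpair.2, h0.ne', hc⟩, ?_⟩
    rw [code_eq]
    have : icode (((cpos m.unpair.1 : ℤ) - cneg m.unpair.1).toNat)
        ((-((cpos m.unpair.1 : ℤ) - cneg m.unpair.1)).toNat) = m.unpair.1 := by
      unfold cpos cneg icode; split_ifs <;> omega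
    simp only [pos, neg]
    rw [this, Nat.pair_unpair]
  · rintro ⟨q, rfl⟩
    rw [code_eq]
    unfold Valid
    simp only [Nat.unpair_pair, cpos_icode, cneg_icode]
    refine ⟨q.den_pos, fun k _ h1 h2 => ?_⟩
    rw [← natAbs_eq] at h1
    exact Nat.eq_one_of_dvd_coprimes q.reduced (Nat.dvd_of_mod_eq_zero h1)
      (Nat.dvd_of_mod_eq_zero h2)

/-- the number of valid codes below `m`. -/
def cnt (m : ℕ) : ℕ := ((List.range m).filter fun x => Valid x).length

/-- the code used by the `Primcodable` instance. -/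
def enc (q : ℚ) : ℕ := @Encodable.encode ℚ (Primcodable.toEncodable) q

lemma enc_eq (q : ℚ) : enc q = cnt (code q) := by
  have : enc q = @List.countP ℕ (fun x => @decide (x ∈ Set.range code)
      (@Encodable.decidableRangeEncode ℚ Rat.instEncodable x)) (List.range (code q)) := rfl
  rw [this, cnt, List.countP_eq_length_filter]
  congr 1
  apply List.filter_congr
  intro x _
  simp [valid_iff]

lemma cnt_eq_count (m : ℕ) : cnt m = Nat.count Valid m := by
  rw [cnt, Nat.count, List.countP_eq_length_filter]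

lemma primrec_cpos : Primrec cpos :=
  Primrec.ite (Primrec.eq.comp (Primrec.nat_mod.comp Primrec.id (.const 2)) (.const 0))
    (Primrec.nat_div.comp Primrec.id (.const 2)) (.const 0)

lemma primrec_cneg : Primrec cneg :=
  Primrec.ite (Primrec.eq.comp (Primrec.nat_mod.comp Primrec.id (.const 2)) (.const 0))
    (.const 0) (Primrec.succ.comp (Primrec.nat_div.comp Primrec.id (.const 2)))

lemma primrec_icode : Primrec₂ icode :=
  Primrec.nat_add.comp (Primrec.nat_double.comp Primrec.fst)
    (Primrec.nat_sub.comp (Primrec.nat_double.comp Primrec.snd) (.const 1))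

lemma primrec_valid : PrimrecPred Valid := by
  have u1 : Primrec fun m : ℕ => m.unpair.1 := Primrec.fst.comp Primrec.unpair
  have u2 : Primrec fun m : ℕ => m.unpair.2 := Primrec.snd.comp Primrec.unpair
  refine PrimrecPred.and (Primrec.nat_lt.comp (.const 0) u2) ?_
  have hR : PrimrecRel fun (k m : ℕ) =>
      (cpos m.unpair.1 + cneg m.unpair.1) % k = 0 → m.unpair.2 % k = 0 → k = 1 := by
    have a : PrimrecPred fun x : ℕ × ℕ => (cpos x.2.unpair.1 + cneg x.2.unpair.1) % x.1 = 0 :=
      Primrec.eq.comp (Primrec.nat_mod.comp (Primrec.nat_add.comp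
        (primrec_cpos.comp (u1.comp Primrec.snd)) (primrec_cneg.comp (u1.comp Primrec.snd)))
        Primrec.fst) (.const 0)
    have b : PrimrecPred fun x : ℕ × ℕ => x.2.unpair.2 % x.1 = 0 :=
      Primrec.eq.comp (Primrec.nat_mod.comp (u2.comp Primrec.snd) Primrec.fst) (.const 0)
    have c : PrimrecPred fun x : ℕ × ℕ => x.1 = 1 := Primrec.eq.comp Primrec.fst (.const 1)
    refine PrimrecPred.of_eq ((a.not.or b.not).or c) ?_
    intro x; tauto
  exact (PrimrecRel.forall_lt hR).comp (Primrec.succ.comp u2) Primrec.id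

lemma primrec_cnt : Primrec cnt :=
  Primrec.list_length.comp ((Primrec.listFilter primrec_valid).comp Primrec.list_range)

lemma valid_pair_one (i : ℕ) : Valid (Nat.pair i 1) := by
  unfold Valid
  simp only [Nat.unpair_pair]
  refine ⟨one_pos, fun k hk _ h2 => ?_⟩
  interval_cases k
  · simp at h2
  · rfl

lemma code_le (q : ℚ) : code q ≤ Nat.pair (enc q) 1 := by
  by_contra h
  push Not at h
  have h1 : enc q + 1 ≤ cnt (code q) := by
    rw [cnt_eq_count, Nat.count_eq_card_filter_range]
    have : (Finset.range (enc q + 1)).image (fun i => Nat.pair i 1) ⊆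
        (Finset.range (code q)).filter Valid := by
      intro x hx
      obtain ⟨i, hi, rfl⟩ := Finset.mem_image.mp hx
      rw [Finset.mem_range] at hi
      rw [Finset.mem_filter, Finset.mem_range]
      refine ⟨lt_of_le_of_lt ?_ h, valid_pair_one i⟩
      rcases (Nat.lt_succ_iff.mp hi).eq_or_lt with e | e
      · rw [e]
      · exact (Nat.pair_lt_pair_left 1 e).le
    have h2 := Finset.card_le_card this
    rwa [Finset.card_image_of_injective _ (fun a b hab => (Nat.pair_eq_pair.mp hab).1),
      Finset.card_range] at h2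
  rw [← enc_eq] at h1
  omega

lemma primrec_enc : Primrec enc := Primrec.encode

lemma primrec_code : Primrec code := by
  refine Primrec.of_graph ⟨fun q => Nat.pair (enc q) 1, Primrec₂.natPair.comp primrec_enc
    (.const 1), code_le⟩ ?_
  have a : PrimrecPred fun x : ℚ × ℕ => Valid x.2 := primrec_valid.comp Primrec.snd
  have b : PrimrecPred fun x : ℚ × ℕ => cnt x.2 = enc x.1 :=
    Primrec.eq.comp (primrec_cnt.comp Primrec.snd) (primrec_enc.comp Primrec.fst)
  refine PrimrecPred.of_eq (a.and b) ?_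
  rintro ⟨q, m⟩
  constructor
  · rintro ⟨h1, h2⟩
    obtain ⟨q', rfl⟩ := (valid_iff m).mp h1
    simp only at h2
    rw [← enc_eq] at h2
    rw [@Encodable.encode_injective ℚ Primcodable.toEncodable _ _ h2]
  · intro h
    simp only at h
    subst h
    exact ⟨(valid_iff _).mpr ⟨q, rfl⟩, (enc_eq q).symm⟩

lemma primrec_den : Primrec fun q : ℚ => q.den :=
  (Primrec.snd.comp (Primrec.unpair.comp primrec_code)).of_eq fun q => by simp [code_eq]

lemma primrec_pos : Primrec pos :=
  (primrec_cpos.comp (Primrec.fst.comp (Primrec.unpair.comp primrec_code))).of_eq fun q => by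
    simp [code_eq, cpos_icode]

lemma primrec_neg' : Primrec neg :=
  (primrec_cneg.comp (Primrec.fst.comp (Primrec.unpair.comp primrec_code))).of_eq fun q => by
    simp [code_eq, cneg_icode]

/-- a function to `ℚ` is primitive recursive when the three parts of its values are. -/
lemma primrec_of_parts {α : Type*} [Primcodable α] {f : α → ℚ} (h1 : Primrec fun a => pos (f a))
    (h2 : Primrec fun a => neg (f a)) (h3 : Primrec fun a => (f a).den) : Primrec f := by
  rw [← Primrec.encode_iff]
  refine (primrec_cnt.comp (Primrec₂.natPair.comp (primrec_icode.comp h1 h2) h3)).of_eq fun a => ?_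
  rw [← code_eq, ← enc_eq]; rfl

lemma primrec_gcd : Primrec₂ fun a d : ℕ => Nat.gcd a (d + 1) := by
  have hR : PrimrecRel fun (x : ℕ × ℕ) (k : ℕ) => x.1 % k = 0 ∧ (x.2 + 1) % k = 0 := by
    have a : PrimrecPred fun y : (ℕ × ℕ) × ℕ => y.1.1 % y.2 = 0 :=
      Primrec.eq.comp (Primrec.nat_mod.comp (Primrec.fst.comp Primrec.fst) Primrec.snd) (.const 0)
    have b : PrimrecPred fun y : (ℕ × ℕ) × ℕ => (y.1.2 + 1) % y.2 = 0 :=
      Primrec.eq.comp (Primrec.nat_mod.comp (Primrec.succ.comp (Primrec.snd.comp Primrec.fst))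
        Primrec.snd) (.const 0)
    exact a.and b
  refine (Primrec.nat_findGreatest (f := fun x : ℕ × ℕ => x.2 + 1)
    (Primrec.succ.comp Primrec.snd) hR).of_eq ?_
  rintro ⟨a, d⟩
  simp only
  rw [Nat.findGreatest_eq_iff]
  refine ⟨Nat.gcd_le_right _ (Nat.succ_pos d), fun _ => ⟨Nat.mod_eq_zero_of_dvd
    (Nat.gcd_dvd_left _ _), Nat.mod_eq_zero_of_dvd (Nat.gcd_dvd_right _ _)⟩, ?_⟩
  rintro n h1 - ⟨h2, h3⟩
  have := Nat.le_of_dvd (Nat.gcd_pos_of_pos_right a (Nat.succ_pos d))
    (Nat.dvd_gcd (Nat.dvd_of_mod_eq_zero h2) (Nat.dvd_of_mod_eq_zero h3))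
  exact absurd h1 (not_lt.mpr this)

/-- the rational `(p - n) / (d + 1)`. -/
def mk (p n d : ℕ) : ℚ := ((p : ℚ) - n) / ((d : ℚ) + 1)

lemma mk_eq (p n d : ℕ) : mk p n d = mkRat ((p : ℤ) - n) (d + 1) := by
  rw [Rat.mkRat_eq_div, mk]; push_cast; rfl

lemma primrec_mk {α : Type*} [Primcodable α] {p n d : α → ℕ} (hp : Primrec p) (hn : Primrec n)
    (hd : Primrec d) : Primrec fun a => mk (p a) (n a) (d a) := by
  have hg : Primrec fun a => Nat.gcd ((p a - n a) + (n a - p a)) (d a + 1) :=
    primrec_gcd.comp (Primrec.nat_add.comp (Primrec.nat_sub.comp hp hn)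
      (Primrec.nat_sub.comp hn hp)) hd
  have key : ∀ a, ((p a : ℤ) - n a).natAbs = (p a - n a) + (n a - p a) := fun a => by omega
  have gpos : ∀ a, 0 < Nat.gcd (d a + 1) ((p a - n a) + (n a - p a)) := fun a =>
    Nat.gcd_pos_of_pos_left _ (Nat.succ_pos _)
  apply primrec_of_parts
  · refine (Primrec.nat_div.comp (Primrec.nat_sub.comp hp hn) hg).of_eq fun a => ?_
    rw [mk_eq, pos, Rat.num_mkRat, if_neg (Nat.succ_ne_zero _), key, Nat.gcd_comm]
    rcases le_total (n a) (p a) with h | h
    · have : (p a : ℤ) - n a = ((p a - n a : ℕ) : ℤ) := by omega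
      rw [this, ← Int.natCast_div, Int.toNat_natCast]
    · have h0 : p a - n a = 0 := by omega
      have : ((p a : ℤ) - n a) / (Nat.gcd (d a + 1) ((p a - n a) + (n a - p a)) : ℕ) ≤ 0 :=
        Int.ediv_nonpos_of_nonpos_of_neg (by omega) (by exact_mod_cast gpos a)
      rw [Int.toNat_of_nonpos this, h0, Nat.zero_div]
  · refine (Primrec.nat_div.comp (Primrec.nat_sub.comp hn hp) hg).of_eq fun a => ?_
    rw [mk_eq, neg, Rat.num_mkRat, if_neg (Nat.succ_ne_zero _), key, Nat.gcd_comm]
    rcases le_total (n a) (p a) with h | h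
    · have h0 : n a - p a = 0 := by omega
      have : 0 ≤ ((p a : ℤ) - n a) / (Nat.gcd (d a + 1) ((p a - n a) + (n a - p a)) : ℕ) :=
        Int.ediv_nonneg (by omega) (by positivity)
      rw [Int.toNat_of_nonpos (by omega), h0, Nat.zero_div]
    · have h0 : p a - n a = 0 := by omega
      have e : (p a : ℤ) - n a = -((n a - p a : ℕ) : ℤ) := by omega
      have hdvd : ((Nat.gcd (d a + 1) ((p a - n a) + (n a - p a)) : ℕ) : ℤ) ∣
          ((n a - p a : ℕ) : ℤ) := by
        rw [h0, zero_add]
        exact_mod_cast Nat.gcd_dvd_right _ _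
      rw [e, Int.neg_ediv_of_dvd hdvd, neg_neg, ← Int.natCast_div, Int.toNat_natCast]
  · refine (Primrec.nat_div.comp (Primrec.succ.comp hd) hg).of_eq fun a => ?_
    rw [mk_eq, Rat.den_mkRat, if_neg (Nat.succ_ne_zero _), key, Nat.gcd_comm]

lemma eq_parts (q : ℚ) : q = ((pos q : ℚ) - neg q) / q.den := by
  conv_lhs => rw [← Rat.num_div_den q, num_eq]
  push_cast; rfl

lemma mk_pred (p n d : ℕ) (hd : 0 < d) : mk p n (d - 1) = ((p : ℚ) - n) / d := by
  obtain ⟨e, rfl⟩ := Nat.exists_eq_succ_of_ne_zero hd.ne'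
  simp [mk]

section ops
variable {α : Type*} [Primcodable α] {f g : α → ℚ}

lemma add (hf : Primrec f) (hg : Primrec g) : Primrec fun a => f a + g a := by
  have p1 := primrec_pos.comp hf
  have n1 := primrec_neg'.comp hf
  have d1 := primrec_den.comp hf
  have p2 := primrec_pos.comp hg
  have n2 := primrec_neg'.comp hg
  have d2 := primrec_den.comp hg
  refine (primrec_mk
    (Primrec.nat_add.comp (Primrec.nat_mul.comp p1 d2) (Primrec.nat_mul.comp p2 d1))
    (Primrec.nat_add.comp (Primrec.nat_mul.comp n1 d2) (Primrec.nat_mul.comp n2 d1))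
    (Primrec.nat_sub.comp (Primrec.nat_mul.comp d1 d2) (.const 1))).of_eq fun a => ?_
  rw [mk_pred _ _ _ (Nat.mul_pos (f a).den_pos (g a).den_pos)]
  conv_rhs => rw [eq_parts (f a), eq_parts (g a)]
  have h1 : ((f a).den : ℚ) ≠ 0 := by exact_mod_cast (f a).den_nz
  have h2 : ((g a).den : ℚ) ≠ 0 := by exact_mod_cast (g a).den_nz
  push_cast
  field_simp
  ring

lemma mul (hf : Primrec f) (hg : Primrec g) : Primrec fun a => f a * g a := by
  have p1 := primrec_pos.comp hf
  have n1 := primrec_neg'.comp hf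
  have d1 := primrec_den.comp hf
  have p2 := primrec_pos.comp hg
  have n2 := primrec_neg'.comp hg
  have d2 := primrec_den.comp hg
  refine (primrec_mk
    (Primrec.nat_add.comp (Primrec.nat_mul.comp p1 p2) (Primrec.nat_mul.comp n1 n2))
    (Primrec.nat_add.comp (Primrec.nat_mul.comp p1 n2) (Primrec.nat_mul.comp n1 p2))
    (Primrec.nat_sub.comp (Primrec.nat_mul.comp d1 d2) (.const 1))).of_eq fun a => ?_
  rw [mk_pred _ _ _ (Nat.mul_pos (f a).den_pos (g a).den_pos)]
  conv_rhs => rw [eq_parts (f a), eq_parts (g a)]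
  have h1 : ((f a).den : ℚ) ≠ 0 := by exact_mod_cast (f a).den_nz
  have h2 : ((g a).den : ℚ) ≠ 0 := by exact_mod_cast (g a).den_nz
  push_cast
  field_simp
  ring

lemma neg' (hf : Primrec f) : Primrec fun a => -f a :=
  (mul (Primrec.const (-1)) hf).of_eq fun a => by ring

lemma sub (hf : Primrec f) (hg : Primrec g) : Primrec fun a => f a - g a :=
  (add hf (neg' hg)).of_eq fun a => by ring

lemma natCast {n : α → ℕ} (hn : Primrec n) : Primrec fun a => (n a : ℚ) :=
  (primrec_mk hn (.const 0) (.const 0)).of_eq fun a => by simp [mk]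

lemma inv (hf : Primrec f) : Primrec fun a => (f a)⁻¹ := by
  have p1 := primrec_pos.comp hf
  have n1 := primrec_neg'.comp hf
  have d1 := primrec_den.comp hf
  refine (primrec_mk
    (Primrec.ite (Primrec.nat_lt.comp (.const 0) p1) d1 (.const 0))
    (Primrec.ite (Primrec.nat_lt.comp (.const 0) n1) d1 (.const 0))
    (Primrec.nat_sub.comp (Primrec.nat_add.comp p1 n1) (.const 1))).of_eq fun a => ?_
  have h1 : ((f a).den : ℚ) ≠ 0 := by exact_mod_cast (f a).den_nz
  conv_rhs => rw [eq_parts (f a)]
  rcases pos_or_neg (f a) with h | h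
  · rcases Nat.eq_zero_or_pos (neg (f a)) with h' | h'
    · simp [h, h', mk]
    · rw [mk_pred _ _ _ (by omega)]
      have : (neg (f a) : ℚ) ≠ 0 := by exact_mod_cast h'.ne'
      simp [h, h']
      field_simp
  · rcases Nat.eq_zero_or_pos (pos (f a)) with h' | h'
    · simp [h, h', mk]
    · rw [mk_pred _ _ _ (by omega)]
      simp [h, h']

lemma div (hf : Primrec f) (hg : Primrec g) : Primrec fun a => f a / g a :=
  (mul hf (inv hg)).of_eq fun a => by rw [div_eq_mul_inv]

lemma pow {n : α → ℕ} (hf : Primrec f) (hn : Primrec n) : Primrec fun a => f a ^ n a := by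
  have h := Primrec.nat_rec' hn (Primrec.const (1 : ℚ))
    (h := fun a (x : ℕ × ℚ) => x.2 * f a)
    (mul (Primrec.snd.comp Primrec.snd) (hf.comp Primrec.fst)).to₂
  refine h.of_eq fun a => ?_
  induction n a with
  | zero => simp
  | succ k ih => simp only [ih, pow_succ]

lemma nonpos (hf : Primrec f) : PrimrecPred fun a => f a ≤ 0 := by
  refine PrimrecPred.of_eq (Primrec.eq.comp (primrec_pos.comp hf) (.const 0)) fun a => ?_
  rw [pos, Int.toNat_eq_zero, Rat.num_nonpos]

lemma le (hf : Primrec f) (hg : Primrec g) : PrimrecPred fun a => f a ≤ g a :=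
  PrimrecPred.of_eq (nonpos (sub hf hg)) fun a => by rw [sub_nonpos]

lemma lt (hf : Primrec f) (hg : Primrec g) : PrimrecPred fun a => f a < g a :=
  PrimrecPred.of_eq (le hg hf).not fun a => by rw [not_le]

end ops

/-- a natural number bound for the absolute value. -/
def ub (q : ℚ) : ℕ := pos q + neg q

lemma primrec_ub : Primrec ub := Primrec.nat_add.comp primrec_pos primrec_neg'

lemma abs_le_ub (q : ℚ) : |(q : ℝ)| ≤ (ub q : ℝ) := by
  have h1 : (1 : ℝ) ≤ q.den := by exact_mod_cast q.den_pos
  rw [ub, ← natAbs_eq, Rat.cast_def, abs_div, Nat.cast_natAbs, Int.cast_abs,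
    abs_of_pos (by linarith : (0 : ℝ) < q.den)]
  exact div_le_self (abs_nonneg _) h1

lemma nat_pow {α : Type*} [Primcodable α] {f g : α → ℕ} (hf : Primrec f) (hg : Primrec g) :
    Primrec fun a => f a ^ g a :=
  (Primrec₂.unpaired'.1 Nat.Primrec.pow).comp hf hg

end Crest.Agent.RatPR
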