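import Mathlib
import Crest.Agent.RatPR.Basic

/-! Real valued functions with primitive recursive rational approximations. -/

namespace Crest.Agent.RatPR

variable {Q : Type*} [Primcodable Q]

/-- `F` has primitive recursive rational approximations to any precision `1/(n+1)`. -/
def Ap (F : Q → ℝ) : Prop :=
  ∃ E : Q × ℕ → ℚ, Primrec E ∧ ∀ q n, |F q - (E (q, n) : ℝ)| ≤ 1 / ((n : ℝ) + 1)

namespace Ap

variable {F G : Q → ℝ}

lemma of_eq (h : Ap F) (e : ∀ q, F q = G q) : Ap G := by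
  have : F = G := funext e
  exact this ▸ h

lemma of_primrec {r : Q → ℚ} (h : Primrec r) : Ap fun q => (r q : ℝ) :=
  ⟨fun x => r x.1, h.comp Primrec.fst, fun q n => by simp; positivity⟩

lemma const (c : ℚ) : Ap fun _ : Q => (c : ℝ) := of_primrec (Primrec.const c)

lemma comp_primrec {Q' : Type*} [Primcodable Q'] (h : Ap F) {g : Q' → Q} (hg : Primrec g) :
    Ap fun q => F (g q) := by
  obtain ⟨E, hE, h⟩ := h
  exact ⟨fun x => E (g x.1, x.2), hE.comp ((hg.comp Primrec.fst).pair Primrec.snd),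
    fun q n => h _ _⟩

lemma bound (h : Ap F) : ∃ K : Q → ℕ, Primrec K ∧ ∀ q, |F q| ≤ K q := by
  obtain ⟨E, hE, h⟩ := h
  refine ⟨fun q => ub (E (q, 0)) + 1,
    Primrec.succ.comp (primrec_ub.comp (hE.comp (Primrec.id.pair (.const 0)))), fun q => ?_⟩
  have h1 := h q 0
  have h2 := abs_le_ub (E (q, 0))
  have h3 := abs_sub_abs_le_abs_sub (F q) (E (q, 0) : ℝ)
  push_cast at h1 ⊢
  linarith

lemma div_le_of {K : ℝ} {m n : ℕ} (h : K * (n + 1) ≤ m + 1) :
    K * (1 / ((m : ℝ) + 1)) ≤ 1 / ((n : ℝ) + 1) := by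
  rw [mul_one_div, div_le_div_iff₀ (by positivity) (by positivity)]
  linarith

lemma add (hF : Ap F) (hG : Ap G) : Ap fun q => F q + G q := by
  obtain ⟨E, hE, h⟩ := hF
  obtain ⟨E', hE', h'⟩ := hG
  have hm : Primrec fun x : Q × ℕ => (x.1, 2 * x.2 + 1) :=
    Primrec.fst.pair (Primrec.nat_double_succ.comp Primrec.snd)
  refine ⟨fun x => E (x.1, 2 * x.2 + 1) + E' (x.1, 2 * x.2 + 1),
    RatPR.add (hE.comp hm) (hE'.comp hm), fun q n => ?_⟩
  have a := h q (2 * n + 1)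
  have b := h' q (2 * n + 1)
  have c := div_le_of (K := 2) (m := 2 * n + 1) (n := n) (by push_cast; linarith)
  have d := abs_add_le (F q - E (q, 2 * n + 1)) (G q - E' (q, 2 * n + 1))
  have e : F q + G q - ((E (q, 2 * n + 1) + E' (q, 2 * n + 1) : ℚ) : ℝ) =
      (F q - E (q, 2 * n + 1)) + (G q - E' (q, 2 * n + 1)) := by push_cast; ring
  simp only
  rw [e]
  linarith

lemma mul (hF : Ap F) (hG : Ap G) : Ap fun q => F q * G q := by
  obtain ⟨K, hK, k⟩ := hF.bound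
  obtain ⟨K', hK', k'⟩ := hG.bound
  obtain ⟨E, hE, h⟩ := hF
  obtain ⟨E', hE', h'⟩ := hG
  have hm : Primrec fun x : Q × ℕ => (x.1, (K x.1 + K' x.1 + 1) * (x.2 + 1)) :=
    Primrec.fst.pair (Primrec.nat_mul.comp (Primrec.succ.comp (Primrec.nat_add.comp
      (hK.comp Primrec.fst) (hK'.comp Primrec.fst))) (Primrec.succ.comp Primrec.snd))
  refine ⟨fun x => E (x.1, (K x.1 + K' x.1 + 1) * (x.2 + 1)) *
      E' (x.1, (K x.1 + K' x.1 + 1) * (x.2 + 1)),
    RatPR.mul (hE.comp hm) (hE'.comp hm), fun q n => ?_⟩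
  simp only
  set m := (K q + K' q + 1) * (n + 1) with hm'
  have a := h q m
  have b := h' q m
  have c := div_le_of (K := (K q : ℝ) + K' q + 1) (m := m) (n := n)
    (by rw [hm']; push_cast; linarith)
  have e : F q * G q - ((E (q, m) * E' (q, m) : ℚ) : ℝ) =
      F q * (G q - E' (q, m)) + (E' (q, m) : ℝ) * (F q - E (q, m)) := by push_cast; ring
  have h1 : 1 / ((m : ℝ) + 1) ≤ 1 := by
    rw [div_le_one (by positivity)]; linarith [(Nat.cast_nonneg m : (0 : ℝ) ≤ m)]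
  have h2 : |(E' (q, m) : ℝ)| ≤ K' q + 1 := by
    have := abs_sub_abs_le_abs_sub (E' (q, m) : ℝ) (G q)
    rw [abs_sub_comm] at this
    linarith [k' q]
  rw [e]
  refine (abs_add_le _ _).trans ?_
  rw [abs_mul, abs_mul]
  have t1 := mul_le_mul (k q) b (abs_nonneg _) (Nat.cast_nonneg _)
  have t2 := mul_le_mul h2 a (abs_nonneg _) (by positivity)
  linarith

lemma neg (hF : Ap F) : Ap fun q => -F q :=
  ((const (-1)).mul hF).of_eq fun q => by simp

lemma sub (hF : Ap F) (hG : Ap G) : Ap fun q => F q - G q :=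
  (hF.add hG.neg).of_eq fun q => by ring

lemma inv (hF : Ap F) (M : ℕ) (hM : 0 < M) (hpos : ∀ q, 1 / (M : ℝ) ≤ F q) :
    Ap fun q => (F q)⁻¹ := by
  obtain ⟨E, hE, h⟩ := hF
  have hm : Primrec fun x : Q × ℕ => (x.1, 2 * M ^ 2 * (x.2 + 1)) :=
    Primrec.fst.pair (Primrec.nat_mul.comp (.const _) (Primrec.succ.comp Primrec.snd))
  refine ⟨fun x => (E (x.1, 2 * M ^ 2 * (x.2 + 1)))⁻¹, RatPR.inv (hE.comp hm), fun q n => ?_⟩
  simp only
  set m := 2 * M ^ 2 * (n + 1) with hm'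
  have a := h q m
  have hM1 : (1 : ℝ) ≤ M := by exact_mod_cast hM
  have c := div_le_of (K := 2 * (M : ℝ) ^ 2) (m := m) (n := n) (by rw [hm']; push_cast; linarith)
  have h1 : 1 / ((m : ℝ) + 1) ≤ 1 / (2 * M) := by
    apply one_div_le_one_div_of_le (by positivity)
    rw [hm']; push_cast
    nlinarith [(Nat.cast_nonneg n : (0 : ℝ) ≤ n), mul_nonneg (sq_nonneg (M : ℝ))
      (Nat.cast_nonneg n : (0 : ℝ) ≤ n)]
  have h2 : 1 / (2 * (M : ℝ)) ≤ (E (q, m) : ℝ) := by
    have := (abs_le.mp a).2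
    have e : 1 / (M : ℝ) = 1 / (2 * M) + 1 / (2 * M) := by field_simp; ring
    linarith [hpos q]
  have hF0 : 0 < F q := lt_of_lt_of_le (by positivity) (hpos q)
  have hE0 : 0 < (E (q, m) : ℝ) := lt_of_lt_of_le (by positivity) h2
  have e : (F q)⁻¹ - (((E (q, m))⁻¹ : ℚ) : ℝ) =
      -(F q - E (q, m)) * ((F q)⁻¹ * (E (q, m) : ℝ)⁻¹) := by
    push_cast; field_simp; ring
  have i1 : (F q)⁻¹ ≤ M := by
    rw [inv_le_comm₀ hF0 (by positivity), ← one_div]; exact hpos q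
  have i2 : (E (q, m) : ℝ)⁻¹ ≤ 2 * M := by
    rw [inv_le_comm₀ hE0 (by positivity), ← one_div]; exact h2
  have i3 : (F q)⁻¹ * (E (q, m) : ℝ)⁻¹ ≤ M * (2 * M) :=
    mul_le_mul i1 i2 (by positivity) (by positivity)
  rw [e, abs_mul, abs_neg, abs_of_pos (show 0 < (F q)⁻¹ * (E (q, m) : ℝ)⁻¹ by positivity)]
  have := mul_le_mul a i3 (by positivity) (by positivity)
  nlinarith

lemma sum {ι : Type*} (s : Finset ι) {F : ι → Q → ℝ} (h : ∀ i ∈ s, Ap (F i)) :
    Ap fun q => ∑ i ∈ s, F i q := by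
  classical
  induction s using Finset.induction_on with
  | empty => exact (const 0).of_eq fun q => by simp
  | insert a s ha ih =>
    refine ((h a (Finset.mem_insert_self _ _)).add
      (ih fun i hi => h i (Finset.mem_insert_of_mem hi))).of_eq fun q => ?_
    rw [Finset.sum_insert ha]

lemma prod {ι : Type*} (s : Finset ι) {F : ι → Q → ℝ} (h : ∀ i ∈ s, Ap (F i)) :
    Ap fun q => ∏ i ∈ s, F i q := by
  classical
  induction s using Finset.induction_on with
  | empty => exact (const 1).of_eq fun q => by simp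
  | insert a s ha ih =>
    refine ((h a (Finset.mem_insert_self _ _)).mul
      (ih fun i hi => h i (Finset.mem_insert_of_mem hi))).of_eq fun q => ?_
    rw [Finset.prod_insert ha]

/-- composition with a Lipschitz function that is approximable at rational points. -/
lemma comp {s : ℝ → ℝ} (K : ℕ) (hs : ∀ x y, |s x - s y| ≤ K * |x - y|)
    (hs' : Ap fun r : ℚ => s r) (hF : Ap F) : Ap fun q => s (F q) := by
  obtain ⟨E, hE, h⟩ := hF
  obtain ⟨E', hE', h'⟩ := hs'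
  have hm : Primrec fun x : Q × ℕ => (x.1, 2 * K * (x.2 + 1)) :=
    Primrec.fst.pair (Primrec.nat_mul.comp (.const _) (Primrec.succ.comp Primrec.snd))
  refine ⟨fun x => E' (E (x.1, 2 * K * (x.2 + 1)), 2 * x.2 + 1),
    hE'.comp ((hE.comp hm).pair (Primrec.nat_double_succ.comp Primrec.snd)), fun q n => ?_⟩
  simp only
  set m := 2 * K * (n + 1) with hm'
  have a := h q m
  have b := h' (E (q, m)) (2 * n + 1)
  have c := div_le_of (K := 2 * (K : ℝ)) (m := m) (n := n) (by rw [hm']; push_cast; linarith)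
  have d := div_le_of (K := 2) (m := 2 * n + 1) (n := n) (by push_cast; linarith)
  have e := hs (F q) (E (q, m))
  have f := abs_sub_le (s (F q)) (s (E (q, m))) (E' (E (q, m), 2 * n + 1) : ℝ)
  have g := mul_le_mul_of_nonneg_left a (Nat.cast_nonneg K : (0 : ℝ) ≤ K)
  linarith

lemma exp_neg_approx {y : ℝ} (hy : 0 ≤ y) {N : ℕ} (hN : 0 < N) :
    |Real.exp (-y) - ((1 + y / N)⁻¹) ^ N| ≤ y ^ 2 / N := by
  have hN' : (0 : ℝ) < N := by exact_mod_cast hN
  set u := y / N with hu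
  have hu0 : 0 ≤ u := by positivity
  have e1 : Real.exp (-y) = Real.exp (-u) ^ N := by
    rw [← Real.exp_nat_mul]; congr 1; rw [hu]; field_simp
  have a1 : 1 - u ≤ Real.exp (-u) := by linarith [Real.add_one_le_exp (-u)]
  have a2 : Real.exp (-u) ≤ (1 + u)⁻¹ := by
    rw [Real.exp_neg]
    exact inv_anti₀ (by positivity) (by linarith [Real.add_one_le_exp u])
  have a3 : (1 + u)⁻¹ ≤ 1 - u + u ^ 2 := by
    rw [inv_le_iff_one_le_mul₀ (by positivity)]
    nlinarith [pow_nonneg hu0 3]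
  have a4 : (1 + u)⁻¹ ≤ 1 := inv_le_one_of_one_le₀ (by linarith)
  have b : |Real.exp (-u) - (1 + u)⁻¹| ≤ u ^ 2 := by
    rw [abs_le]; constructor <;> nlinarith [sq_nonneg u]
  have c := abs_pow_sub_pow_le (Real.exp (-u)) ((1 + u)⁻¹) N
  have d : max |Real.exp (-u)| |(1 + u)⁻¹| ^ (N - 1) ≤ 1 := by
    apply pow_le_one₀ (le_max_of_le_left (abs_nonneg _))
    rw [abs_of_pos (Real.exp_pos _), abs_of_pos (by positivity)]
    exact max_le (a2.trans a4) a4
  rw [e1]
  refine c.trans ?_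
  calc |Real.exp (-u) - (1 + u)⁻¹| * N * max |Real.exp (-u)| |(1 + u)⁻¹| ^ (N - 1)
      ≤ u ^ 2 * N * 1 := by gcongr
    _ = y ^ 2 / N := by rw [hu]; field_simp

lemma expNegInvGlue_rat : Ap fun r : ℚ => expNegInvGlue r := by
  have hN : Primrec fun x : ℚ × ℕ => x.1.den ^ 2 * (x.2 + 1) :=
    Primrec.nat_mul.comp (nat_pow (primrec_den.comp Primrec.fst) (.const 2))
      (Primrec.succ.comp Primrec.snd)
  refine ⟨fun x => if x.1 ≤ 0 then 0 else
      ((1 + x.1⁻¹ / (x.1.den ^ 2 * (x.2 + 1) : ℕ))⁻¹) ^ (x.1.den ^ 2 * (x.2 + 1)),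
    Primrec.ite (nonpos Primrec.fst) (.const 0) (RatPR.pow (RatPR.inv (RatPR.add (.const 1)
      (RatPR.div (RatPR.inv Primrec.fst) (natCast hN)))) hN), fun r n => ?_⟩
  simp only
  split_ifs with h
  · rw [expNegInvGlue.zero_of_nonpos (by exact_mod_cast h)]
    simp; positivity
  · push Not at h
    have hr : (0 : ℝ) < r := by exact_mod_cast h
    have hpos : 0 < r.den ^ 2 * (n + 1) := Nat.mul_pos (pow_pos r.den_pos 2) (Nat.succ_pos n)
    have key := exp_neg_approx (y := (r : ℝ)⁻¹) (by positivity) hpos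
    have e : expNegInvGlue (r : ℝ) = Real.exp (-(r : ℝ)⁻¹) := by
      simp [expNegInvGlue, not_le.mpr hr]
    rw [e]
    have e2 : ((((1 + r⁻¹ / (r.den ^ 2 * (n + 1) : ℕ))⁻¹) ^ (r.den ^ 2 * (n + 1)) : ℚ) : ℝ) =
        ((1 + (r : ℝ)⁻¹ / (r.den ^ 2 * (n + 1) : ℕ))⁻¹) ^ (r.den ^ 2 * (n + 1)) := by
      push_cast; rfl
    rw [e2]
    refine key.trans ?_
    have hd : (0 : ℝ) < r.den := by exact_mod_cast r.den_pos
    have h1 : (r : ℝ)⁻¹ ≤ r.den := by
      have hn : (1 : ℝ) ≤ r.num := by exact_mod_cast Rat.num_pos.mpr h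
      rw [Rat.cast_def, inv_div, div_le_iff₀ (by linarith)]
      nlinarith
    have h2 : (r : ℝ)⁻¹ ^ 2 ≤ (r.den : ℝ) ^ 2 := pow_le_pow_left₀ (by positivity) h1 2
    push_cast
    rw [div_le_div_iff₀ (by positivity) (by positivity)]
    nlinarith [(Nat.cast_nonneg n : (0 : ℝ) ≤ n)]

end Ap

end Crest.Agent.RatPR
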